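import Vale.Agent.P235.R2.RED.SweptE
import Vale.Agent.P235.H206.SurfFinal
import Vale.Agent.P235.H105.Peel2
import Vale.Agent.P235.Comp.Core

/-!
P235, planar graphs embed with distortion `O(log log n)` (helper844).  What follows from the planar
theorem by the starting files: surfaces, rounds, path decompositions.
-/

set_option autoImplicit false
set_option linter.all false

namespace Vale.Agent.P235.LL

open SimpleGraph

/-- the planar theorem: `c₁ ≤ C LL(n)` for plane graphs -/
def PL : Prop := ∃ C : ℝ, 1 ≤ C ∧ ∀ (V : Type) [Finite V] (G : SimpleGraph V), G.Connected →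
  (∃ σ : Equiv.Perm G.Dart, PlaneMap G σ) → DistortionLE G (C * Swp.LL (Nat.card V))

/-- a graph on a surface of Euler genus at most `g`, or a graph with at most one vertex -/
def Surf (g : ℕ) (V : Type) (G : SimpleGraph V) : Prop :=
  Nat.card V ≤ 1 ∨ ∃ σ : Equiv.Perm G.Dart, SurfMap g G σ

theorem card_set_le {V : Type} [Finite V] (S : Set V) : Nat.card S ≤ Nat.card V :=
  Nat.card_le_card_of_injective Subtype.val Subtype.val_injective

/-- components of a finite graph keep the bound for the number of vertices -/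
theorem strip_card {P : ∀ (V : Type), SimpleGraph V → Prop} {s g k : ℕ} {V : Type}
    {G : SimpleGraph V} {ℓ : Sym2 V → ℝ} (h : SurfStrip P s g k G ℓ) :
    ∀ n, Finite V → Nat.card V ≤ n →
      SurfStrip (fun V G => P V G ∧ Nat.card V ≤ n) s g k G ℓ := by
  induction h with
  | leaf hP => exact fun n _ hn => SurfStrip.leaf ⟨hP, hn⟩
  | lanes hX hL _ ih =>
    intro n hF hn
    exact SurfStrip.lanes hX hL fun u hu =>
      ih u hu n inferInstance ((card_set_le _).trans hn)
  | face hσ _ ih =>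
    intro n hF hn
    exact SurfStrip.face hσ fun u hu => ih u hu n inferInstance ((card_set_le _).trans hn)

theorem LL_mono' {m n : ℕ} (h : m ≤ n) : Swp.LL m ≤ Swp.LL n := Swp.LL_mono h

/-- genus -/
theorem genus {C : ℝ} (hC : 1 ≤ C) (hP : ∀ (V : Type) [Finite V] (G : SimpleGraph V),
    G.Connected → (∃ σ : Equiv.Perm G.Dart, PlaneMap G σ) →
      DistortionLE G (C * Swp.LL (Nat.card V))) (g n : ℕ) (V : Type) [Finite V]
    (G : SimpleGraph V) (hc : G.Connected) (hn : Nat.card V ≤ n) (hσ : Surf g V G) :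
    DistortionLE G (10000000 * (C * Swp.LL n + Real.log (g + 2))) := by
  have h1 : 1 ≤ C * Swp.LL n := one_le_mul_of_one_le_of_one_le hC (Swp.LL_one n)
  rcases hσ with h2 | hσ
  · have : Subsingleton V := (Finite.card_le_one_iff_subsingleton).1 h2
    exact distortion_subsingleton _ hc.nonempty
  refine genus_distortion g h1 V G hc hσ fun S hS hτ => ?_
  obtain ⟨τ, hτ⟩ := hτ
  refine (hP S (G.induce S) hS ⟨τ, SurfMap.plane hS hτ⟩).mono ?_
  exact mul_le_mul_of_nonneg_left (Swp.LL_mono ((card_set_le S).trans hn)) (by linarith)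

/-- **the planar theorem gives**: surfaces of Euler genus `g`; `k` rounds of deletions; path
decompositions of adhesion `w` -/
theorem extra (h : PL) : ∃ C : ℝ, 1 ≤ C ∧ ∀ (V : Type) [Finite V] (G : SimpleGraph V),
    G.Connected →
    ((∃ σ : Equiv.Perm G.Dart, PlaneMap G σ) → DistortionLE G (C * Swp.LL (Nat.card V))) ∧
    (∀ g : ℕ, (∃ σ : Equiv.Perm G.Dart, SurfMap g G σ) →
      DistortionLE G (C * (Swp.LL (Nat.card V) + Real.log (g + 2)))) ∧
    (∀ g g' s k : ℕ, (∀ ℓ : Sym2 V → ℝ, (∀ e ∈ G.edgeSet, 0 < ℓ e) →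
        SurfStrip (Surf g) s g' k G ℓ) →
      DistortionLE G (C * (Swp.LL (Nat.card V) + Real.log (g + 2) +
        k * (g' + Real.log (s + 2))))) ∧
    (∀ (g w N : ℕ) (B : Fin N → Set V), PathDec G w B →
      (∀ i, ∀ u ∈ B i, Surf g _ (G.induce (compSet G (B i)ᶜ u))) →
      DistortionLE G (C * (Swp.LL (Nat.card V) + Real.log (g + 2) + √w))) := by
  obtain ⟨C, hC, hP⟩ := h
  have hlog : ∀ g : ℕ, 0 ≤ Real.log ((g : ℝ) + 2) := fun g =>
    Real.log_nonneg (by have : (0 : ℝ) ≤ g := Nat.cast_nonneg g; linarith)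
  refine ⟨10 ^ 14 * C, by nlinarith, ?_⟩
  intro V _ G hc
  have hL1 := Swp.LL_one (Nat.card V)
  have hCL : 1 ≤ C * Swp.LL (Nat.card V) := one_le_mul_of_one_le_of_one_le hC hL1
  refine ⟨fun hσ => ?_, fun g hσ => ?_, fun g g' s k hS => ?_, fun g w N B hB hB' => ?_⟩
  · refine (hP V G hc hσ).mono ?_
    nlinarith
  · refine (genus hC hP g _ V G hc le_rfl (Or.inr hσ)).mono ?_
    have := hlog g
    nlinarith
  · have hlg := hlog g
    have hls := hlog s
    have h1 : 1 ≤ 10000000 * (C * Swp.LL (Nat.card V) + Real.log (g + 2)) := by nlinarith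
    refine (surfStrip_distortion (fun W H => Surf g W H ∧ Nat.card W ≤ Nat.card V) h1
      (fun W _ H hH hW => genus hC hP g _ W H hH hW.2 hW.1) s g' k V G hc
      fun ℓ hℓ => strip_card (hS ℓ hℓ) _ inferInstance le_rfl).mono ?_
    have hk : (0 : ℝ) ≤ k := Nat.cast_nonneg k
    have hg' : (0 : ℝ) ≤ g' := Nat.cast_nonneg g'
    have h2 : 0 ≤ (k : ℝ) * (g' + Real.log (s + 2)) := mul_nonneg hk (by linarith)
    have h3 : 0 ≤ (C - 1) * Real.log ((g : ℝ) + 2) := mul_nonneg (by linarith) hlg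
    have h4 : 0 ≤ (C - 1) * ((k : ℝ) * (g' + Real.log (s + 2))) := mul_nonneg (by linarith) h2
    nlinarith
  · have hlg := hlog g
    have h1 : 1 ≤ 10000000 * (C * Swp.LL (Nat.card V) + Real.log (g + 2)) := by nlinarith
    have hH : ∀ i, ∀ u ∈ B i, (G.induce (compSet G (B i)ᶜ u)).Connected := by
      intro i u hu
      exact comp_connected (fun hx => hx hu)
    refine (pathSum_sqrt w h1 V G hc N B hB fun i u hu =>
      genus hC hP g _ _ _ (hH i u hu) (card_set_le _) (hB' i u hu)).mono ?_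
    have hw : 0 ≤ √(w : ℝ) := Real.sqrt_nonneg _
    have h3 : 0 ≤ (C - 1) * Real.log ((g : ℝ) + 2) := mul_nonneg (by linarith) hlg
    have h4 : 0 ≤ (C - 1) * √(w : ℝ) := mul_nonneg (by linarith) hw
    nlinarith

end Vale.Agent.P235.LL
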