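import Vale.Agent.P235.R2.H611.K33a
import Vale.Agent.P235.R2.H26.RowW2
import Vale.Agent.P235.R2.H934.Multi1

/-!
P235, planar graphs embed with distortion `O(log log n)` (helper844), section (3) of helper40's
proof.  Part 1: ascending arcs as sets of vertices, and the excluded `K_{3,3}`.
-/

set_option autoImplicit false
set_option linter.all false

namespace Vale.Agent.P235.LL

open Relation SimpleGraph Vale.Agent.P235.Quo

/-- `A` is the vertex set of an ascending path from `p` to `q` -/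
structure Arc {V : Type} (R : V → V → Prop) (h : V → ℝ) (p q : V) (A : Set V) : Prop where
  bot : p ∈ A
  top : q ∈ A
  ge : ∀ x ∈ A, h p ≤ h x
  le : ∀ x ∈ A, h x ≤ h q
  inj : ∀ x ∈ A, ∀ y ∈ A, h x = h y → x = y
  next : ∀ x ∈ A, x ≠ q → ∃ y ∈ A, R x y ∧ h x < h y ∧ ∀ z ∈ A, h z ≤ h x ∨ h y ≤ h z

section arc

variable {V : Type} {R : V → V → Prop} {h : V → ℝ} {p q r : V} {A B : Set V}

theorem Arc.lt_top (hA : Arc R h p q A) {x : V} (hx : x ∈ A) (hne : x ≠ q) : h x < h q :=
  lt_of_le_of_ne (hA.le x hx) fun e => hne (hA.inj x hx q hA.top e)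

theorem Arc.bot_lt (hA : Arc R h p q A) {x : V} (hx : x ∈ A) (hne : x ≠ p) : h p < h x :=
  lt_of_le_of_ne (hA.ge x hx) fun e => hne (hA.inj x hx p hA.bot e.symm)

theorem Arc.prev [Finite V] (hA : Arc R h p q A) {x : V} (hx : x ∈ A) (hne : x ≠ p) :
    ∃ y ∈ A, R y x ∧ h y < h x ∧ ∀ z ∈ A, h z ≤ h y ∨ h x ≤ h z := by
  obtain ⟨y, ⟨hyA, hyx⟩, hmax⟩ := Set.exists_max_image {y | y ∈ A ∧ h y < h x} h
    (Set.toFinite _) ⟨p, hA.bot, hA.bot_lt hx hne⟩
  have hyq : y ≠ q := by
    rintro rfl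
    exact absurd (hA.le x hx) (not_le.2 hyx)
  obtain ⟨w, hwA, hyw, hlt, hgap⟩ := hA.next y hyA hyq
  have hwx : h w ≤ h x := (hgap x hx).resolve_left (not_le.2 hyx)
  have hxw : h x ≤ h w := by
    by_contra hcon
    exact absurd hlt (not_lt.2 (hmax w ⟨hwA, not_le.1 hcon⟩))
  have hw : w = x := hA.inj w hwA x hx (le_antisymm hwx hxw)
  subst hw
  exact ⟨y, hyA, hyw, hyx, hgap⟩

theorem Arc.neg [Finite V] (hA : Arc R h p q A) :
    Arc (fun u v => R v u) (fun v => - h v) q p A where
  bot := hA.top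
  top := hA.bot
  ge := fun x hx => neg_le_neg (hA.le x hx)
  le := fun x hx => neg_le_neg (hA.ge x hx)
  inj := fun x hx y hy e => hA.inj x hx y hy (neg_injective e)
  next := fun x hx hne => by
    obtain ⟨y, hy, h1, h2, h3⟩ := hA.prev hx hne
    exact ⟨y, hy, h1, neg_lt_neg h2, fun z hz => (h3 z hz).symm.imp neg_le_neg neg_le_neg⟩

theorem Arc.single (x : V) : Arc R h x x {x} where
  bot := rfl
  top := rfl
  ge := by rintro y rfl; exact le_rfl
  le := by rintro y rfl; exact le_rfl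
  inj := by rintro y rfl z rfl _; rfl
  next := by rintro y rfl hne; exact absurd rfl hne

theorem Arc.edge {x y : V} (hxy : R x y) (hlt : h x < h y) : Arc R h x y {x, y} where
  bot := Or.inl rfl
  top := Or.inr rfl
  ge := by
    rintro z (rfl | rfl)
    · exact le_rfl
    · exact hlt.le
  le := by
    rintro z (rfl | rfl)
    · exact hlt.le
    · exact le_rfl
  inj := by
    rintro z (rfl | rfl) w (rfl | rfl) e
    · rfl
    · exact absurd e hlt.ne
    · exact absurd e hlt.ne'
    · rfl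
  next := by
    rintro z (rfl | rfl) hne
    · refine ⟨y, Or.inr rfl, hxy, hlt, ?_⟩
      rintro w (rfl | rfl)
      · exact Or.inl le_rfl
      · exact Or.inr le_rfl
    · exact absurd rfl hne

theorem Arc.glue (hA : Arc R h p q A) (hB : Arc R h q r B) : Arc R h p r (A ∪ B) where
  bot := Or.inl hA.bot
  top := Or.inr hB.top
  ge := by
    rintro x (hx | hx)
    · exact hA.ge x hx
    · exact (hA.ge q hA.top).trans (hB.ge x hx)
  le := by
    rintro x (hx | hx)
    · exact (hA.le x hx).trans (hB.le q hB.bot)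
    · exact hB.le x hx
  inj := by
    have key : ∀ x ∈ A, ∀ y ∈ B, h x = h y → x = y := fun x hx y hy e => by
      have h1 := hA.le x hx
      have h2 := hB.ge y hy
      have e1 : h x = h q := by linarith
      have e2 : h y = h q := by linarith
      rw [hA.inj x hx q hA.top e1, hB.inj y hy q hB.bot e2]
    rintro x (hx | hx) y (hy | hy) e
    · exact hA.inj x hx y hy e
    · exact key x hx y hy e
    · exact (key y hy x hx e.symm).symm
    · exact hB.inj x hx y hy e
  next := by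
    rintro x (hx | hx) hne
    · by_cases hxq : x = q
      · subst hxq
        obtain ⟨y, hy, h1, h2, h3⟩ := hB.next x hB.bot hne
        refine ⟨y, Or.inr hy, h1, h2, ?_⟩
        rintro z (hz | hz)
        · exact Or.inl (hA.le z hz)
        · exact h3 z hz
      · obtain ⟨y, hy, h1, h2, h3⟩ := hA.next x hx hxq
        refine ⟨y, Or.inl hy, h1, h2, ?_⟩
        rintro z (hz | hz)
        · exact h3 z hz
        · exact Or.inr ((hA.le y hy).trans (hB.ge z hz))
    · obtain ⟨y, hy, h1, h2, h3⟩ := hB.next x hx hne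
      refine ⟨y, Or.inr hy, h1, h2, ?_⟩
      rintro z (hz | hz)
      · exact Or.inl ((hA.le z hz).trans (hB.ge x hx))
      · exact h3 z hz

theorem Arc.seg (hA : Arc R h p q A) {u v : V} (hu : u ∈ A) (hv : v ∈ A) (huv : h u ≤ h v) :
    Arc R h u v {x | x ∈ A ∧ h u ≤ h x ∧ h x ≤ h v} where
  bot := ⟨hu, le_rfl, huv⟩
  top := ⟨hv, huv, le_rfl⟩
  ge := fun x hx => hx.2.1
  le := fun x hx => hx.2.2
  inj := fun x hx y hy e => hA.inj x hx.1 y hy.1 e
  next := by
    rintro x ⟨hx, h1, h2⟩ hne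
    have hlt : h x < h v := lt_of_le_of_ne h2 fun e => hne (hA.inj x hx v hv e)
    have hxq : x ≠ q := by
      rintro rfl
      exact absurd (hA.le v hv) (not_le.2 hlt)
    obtain ⟨y, hy, h3, h4, h5⟩ := hA.next x hx hxq
    have h6 : h y ≤ h v := (h5 v hv).resolve_left (not_le.2 hlt)
    exact ⟨y, ⟨hy, h1.trans h4.le, h6⟩, h3, h4, fun z hz => h5 z hz.1⟩

theorem Arc.mono {R' : V → V → Prop} (hA : Arc R h p q A) (hR : ∀ u v, R u v → R' u v) :
    Arc R' h p q A where
  bot := hA.bot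
  top := hA.top
  ge := hA.ge
  le := hA.le
  inj := hA.inj
  next := fun x hx hne => by
    obtain ⟨y, hy, h1, h2, h3⟩ := hA.next x hx hne
    exact ⟨y, hy, hR _ _ h1, h2, h3⟩

/-- parts of an arc between two heights are connected -/
theorem Arc.conn [Finite V] {G : SimpleGraph V} (hR : ∀ u v, R u v → G.Adj u v)
    (hA : Arc R h p q A) {I : Set ℝ} (hI : I.OrdConnected) (hne : ∃ x ∈ A, h x ∈ I) :
    (G.induce {x | x ∈ A ∧ h x ∈ I}).Connected := by
  obtain ⟨j, ⟨hj, hjI⟩, hmax⟩ := Set.exists_max_image {x | x ∈ A ∧ h x ∈ I} h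
    (Set.toFinite _) hne
  refine Vale.Agent.P235.R2.H934.conn_asc (h := h) (j := j) ⟨hj, hjI⟩ ?_
  rintro v ⟨hv, hvI⟩ hvj
  have hlt : h v < h j := lt_of_le_of_ne (hmax v ⟨hv, hvI⟩) fun e => hvj (hA.inj v hv j hj e)
  have hvq : v ≠ q := by
    rintro rfl
    exact absurd (hA.le j hj) (not_le.2 hlt)
  obtain ⟨y, hy, h3, h4, h5⟩ := hA.next v hv hvq
  have h6 : h y ≤ h j := (h5 j hj).resolve_left (not_le.2 hlt)
  exact ⟨y, ⟨hy, hI.out hvI hjI ⟨h4.le, h6⟩⟩, hR _ _ h3, h4⟩

/-- arcs exist between comparable vertices -/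
theorem exists_arc {U : V → V → Prop} (hU : ∀ u v, U u v → h u < h v) {L : Set V}
    (hL : ∀ u v, U u v → u ∈ L ∧ v ∈ L) {a b : V} (ha : a ∈ L) (hab : ReflTransGen U a b) :
    ∃ A, Arc U h a b A ∧ A ⊆ L := by
  induction hab with
  | refl => exact ⟨{a}, Arc.single a, by rintro x rfl; exact ha⟩
  | @tail b c _ hbc ih =>
    obtain ⟨A, hA, hAL⟩ := ih
    refine ⟨A ∪ {b, c}, hA.glue (Arc.edge hbc (hU _ _ hbc)), ?_⟩
    rintro x (hx | rfl | rfl)
    · exact hAL hx
    · exact (hL _ _ hbc).1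
    · exact (hL _ _ hbc).2

theorem rtg_lt {U : V → V → Prop} (hU : ∀ u v, U u v → h u < h v) {a b : V}
    (hab : ReflTransGen U a b) : a = b ∨ h a < h b := by
  induction hab with
  | refl => exact Or.inl rfl
  | tail _ e ih =>
    right
    rcases ih with rfl | ih
    · exact hU _ _ e
    · exact ih.trans (hU _ _ e)

/-- a chain is covered by an arc -/
theorem exists_arc_cover {U : V → V → Prop} (hU : ∀ u v, U u v → h u < h v) {L : Set V}
    (hL : ∀ u v, U u v → u ∈ L ∧ v ∈ L) {t : V} (htop : ∀ v ∈ L, ReflTransGen U v t) :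
    ∀ (n : ℕ) (C : Finset V), C.card = n → (∀ c ∈ C, c ∈ L) →
      (∀ x ∈ C, ∀ y ∈ C, ReflTransGen U x y ∨ ReflTransGen U y x) →
      ∀ a ∈ L, (∀ c ∈ C, ReflTransGen U a c) →
      ∃ A, Arc U h a t A ∧ A ⊆ L ∧ ∀ c ∈ C, c ∈ A := by
  classical
  intro n
  induction n with
  | zero =>
    intro C hC _ _ a ha _
    obtain ⟨A, hA, hAL⟩ := exists_arc hU hL ha (htop a ha)
    rw [Finset.card_eq_zero] at hC
    subst hC
    exact ⟨A, hA, hAL, by simp⟩
  | succ n ih =>
    intro C hC hCL hch a ha haC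
    have hne : C.Nonempty := by
      rw [← Finset.card_pos]
      omega
    obtain ⟨c, hc, hmin⟩ := C.exists_min_image h hne
    obtain ⟨A, hA, hAL⟩ := exists_arc hU hL ha (haC c hc)
    obtain ⟨B, hB, hBL, hBC⟩ := ih (C.erase c) (by rw [Finset.card_erase_of_mem hc]; omega)
      (fun x hx => hCL x (Finset.mem_of_mem_erase hx))
      (fun x hx y hy => hch x (Finset.mem_of_mem_erase hx) y (Finset.mem_of_mem_erase hy))
      c (hCL c hc) (fun x hx => by
        have hxC := Finset.mem_of_mem_erase hx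
        rcases hch c hc x hxC with h1 | h1
        · exact h1
        · rcases rtg_lt hU h1 with h2 | h2
          · exact absurd h2 (Finset.ne_of_mem_erase hx)
          · exact absurd (hmin x hxC) (not_le.2 h2))
    refine ⟨A ∪ B, hA.glue hB, ?_, ?_⟩
    · rintro x (hx | hx)
      · exact hAL hx
      · exact hBL hx
    · intro x hx
      by_cases hxc : x = c
      · rw [hxc]
        exact Or.inr hB.bot
      · exact Or.inr (hBC x (Finset.mem_erase.2 ⟨hxc, hx⟩))

end arc

section conn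

variable {V : Type} {G : SimpleGraph V}

theorem conn_union {S T : Set V} (hS : (G.induce S).Connected) (hT : (G.induce T).Connected)
    {x : V} (hxS : x ∈ S) (hxT : x ∈ T) : (G.induce (S ∪ T)).Connected :=
  SimpleGraph.induce_union_connected hS.preconnected hT.preconnected ⟨x, hxS, hxT⟩

theorem conn_union_adj {S T : Set V} (hS : (G.induce S).Connected) (hT : (G.induce T).Connected)
    {x y : V} (hx : x ∈ S) (hy : y ∈ T) (hxy : G.Adj x y) : (G.induce (S ∪ T)).Connected :=
  SimpleGraph.connected_induce_union hS.preconnected hT.preconnected hx hy hxy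

end conn

end Vale.Agent.P235.LL
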