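import Vale.Agent.P235.LL.H844.Arc
import Vale.Agent.P235.R2.H611.TermFinal

/-!
P235, planar graphs embed with distortion `O(log log n)` (helper844), section (3) of helper40's
proof.  Part 2: the neighbours of a connected set lie on a cycle made of two ascending arcs.
-/

set_option autoImplicit false
set_option linter.all false

namespace Vale.Agent.P235.LL

open Relation SimpleGraph Vale.Agent.P235.Quo

section k33

variable {V : Type} [Finite V] {G : SimpleGraph V}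

/-- no neighbour of `K` on `A` below a detour of `B` with a neighbour of `K` -/
theorem k33_low (hK33 : RowK33) (hc : G.Connected) (hP : ∃ σ : Equiv.Perm G.Dart, PlaneMap G σ)
    {R : V → V → Prop} {h : V → ℝ} (hR : ∀ u v, R u v → G.Adj u v) {s t : V} (hst : G.Adj s t)
    {A B : Set V} (hA : Arc R h s t A) (hB : Arc R h s t B) {K : Set V}
    (hK : (G.induce K).Connected) (hKA : Disjoint K A) (hKB : Disjoint K B) {vm vp : V}
    (hmA : vm ∈ A) (hmB : vm ∈ B) (hpA : vp ∈ A) (hpB : vp ∈ B)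
    (hY : ∀ x ∈ A, x ∈ B → h x ≤ h vm ∨ h vp ≤ h x) {n b' b : V}
    (hnB : n ∈ B) (hn1 : h vm < h n) (hn2 : h n < h vp) (hnK : ∃ x ∈ K, G.Adj x n)
    (hb'A : b' ∈ A) (hb'1 : h vm < h b') (hb'2 : h b' < h vp) (hb'K : ∃ x ∈ K, G.Adj x b')
    (hbA : b ∈ A) (hb1 : h b < h vm) (hbK : ∃ x ∈ K, G.Adj x b) : False := by
  classical
  have hnA : n ∉ A := fun hn => by
    rcases hY n hn hnB with h1 | h1
    · exact absurd hn1 (not_lt.2 h1)
    · exact absurd hn2 (not_lt.2 h1)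
  have hb'B : b' ∉ B := fun hb => by
    rcases hY b' hb'A hb with h1 | h1
    · exact absurd hb'1 (not_lt.2 h1)
    · exact absurd hb'2 (not_lt.2 h1)
  have hb't : b' ≠ t := by
    rintro rfl
    exact absurd (hA.le vp hpA) (not_le.2 hb'2)
  have hnt : n ≠ t := by
    rintro rfl
    exact absurd (hB.le vp hpB) (not_le.2 hn2)
  have hbt : b ≠ t := by
    rintro rfl
    exact absurd (hA.le vm hmA) (not_le.2 hb1)
  have hb's : b' ≠ s := by
    rintro rfl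
    exact absurd (hA.ge vm hmA) (not_le.2 hb'1)
  have hns : n ≠ s := by
    rintro rfl
    exact absurd (hB.ge vm hmB) (not_le.2 hn1)
  set X1 : Set V := {x | x ∈ A ∧ h x ∈ Set.Ioo (h b) (h b')} ∪
    {x | x ∈ B ∧ h x ∈ Set.Ico (h vm) (h n)} with hX1
  set X2 : Set V := ({x | x ∈ A ∧ h x ∈ Set.Ioi (h b')} ∪
    {x | x ∈ B ∧ h x ∈ Set.Ioc (h n) (h vp)}) ∪ {x | x ∈ A ∧ h x ∈ Set.Iio (h b)} with hX2
  have c1 : (G.induce X1).Connected :=
    conn_union (hA.conn hR Set.ordConnected_Ioo ⟨vm, hmA, hb1, hb'1⟩)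
      (hB.conn hR Set.ordConnected_Ico ⟨vm, hmB, le_rfl, hn1⟩)
      (x := vm) ⟨hmA, hb1, hb'1⟩ ⟨hmB, le_rfl, hn1⟩
  have c2' : (G.induce ({x | x ∈ A ∧ h x ∈ Set.Ioi (h b')} ∪
      {x | x ∈ B ∧ h x ∈ Set.Ioc (h n) (h vp)})).Connected :=
    conn_union (hA.conn hR Set.ordConnected_Ioi ⟨vp, hpA, hb'2⟩)
      (hB.conn hR Set.ordConnected_Ioc ⟨vp, hpB, hn2, le_rfl⟩)
      (x := vp) ⟨hpA, hb'2⟩ ⟨hpB, hn2, le_rfl⟩
  have htX : t ∈ {x | x ∈ A ∧ h x ∈ Set.Ioi (h b')} := ⟨hA.top, hA.lt_top hb'A hb't⟩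
  have c2 : (G.induce X2).Connected := by
    by_cases hbs : b = s
    · have he : {x | x ∈ A ∧ h x ∈ Set.Iio (h b)} = ∅ := by
        ext x
        simp only [Set.mem_setOf_eq, Set.mem_Iio, Set.mem_empty_iff_false, iff_false, not_and,
          not_lt]
        intro hx
        rw [hbs]
        exact hA.ge x hx
      rw [hX2, he, Set.union_empty]
      exact c2'
    · have hs : s ∈ {x | x ∈ A ∧ h x ∈ Set.Iio (h b)} := ⟨hA.bot, hA.bot_lt hbA hbs⟩
      exact conn_union_adj c2' (hA.conn hR Set.ordConnected_Iio ⟨s, hs⟩) (x := t) (y := s)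
        (Or.inl htX) hs hst.symm
  have d12 : Disjoint X1 X2 := by
    rw [Set.disjoint_left]
    rintro x (⟨h1, h2, h3⟩ | ⟨h1, h2, h3⟩) ((⟨h4, h5⟩ | ⟨h4, h5, h6⟩) | ⟨h4, h5⟩)
    · exact lt_asymm h3 h5
    · rcases hY x h1 h4 with h7 | h7
      · linarith
      · linarith
    · exact lt_asymm h2 h5
    · rcases hY x h4 h1 with h7 | h7
      · have : h b' < h x := h5
        linarith
      · linarith
    · linarith
    · have : h x < h b := h5
      linarith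
  have d1K : Disjoint X1 K := by
    rw [Set.disjoint_left]
    rintro x (⟨h1, -⟩ | ⟨h1, -⟩) h2
    · exact Set.disjoint_left.1 hKA h2 h1
    · exact Set.disjoint_left.1 hKB h2 h1
  have d2K : Disjoint X2 K := by
    rw [Set.disjoint_left]
    rintro x ((⟨h1, -⟩ | ⟨h1, -⟩) | ⟨h1, -⟩) h2
    · exact Set.disjoint_left.1 hKA h2 h1
    · exact Set.disjoint_left.1 hKB h2 h1
    · exact Set.disjoint_left.1 hKA h2 h1
  have nbn : b' ≠ n := fun e => hnA (e ▸ hb'A)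
  have nbb : b' ≠ b := by
    rintro rfl
    linarith
  have nnb : n ≠ b := fun e => hnA (e ▸ hbA)
  have hinj : Function.Injective ![b', n, b] := by
    intro i j hij
    fin_cases i <;> fin_cases j
    · rfl
    · exact absurd hij nbn
    · exact absurd hij nbb
    · exact absurd hij.symm nbn
    · rfl
    · exact absurd hij nnb
    · exact absurd hij.symm nbb
    · exact absurd hij.symm nnb
    · rfl
  refine hK33 V G hc hP ![b', n, b] ![X1, X2, K] hinj ?_ ?_ ?_ ?_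
  · intro i
    fin_cases i
    · exact c1
    · exact c2
    · exact hK
  · intro i j hij
    fin_cases i <;> fin_cases j <;>
      first
        | exact absurd rfl hij
        | exact d12
        | exact d12.symm
        | exact d1K
        | exact d1K.symm
        | exact d2K
        | exact d2K.symm
  · have k1 : b' ∉ X1 := by
      rintro (⟨-, -, h3⟩ | ⟨h1, -⟩)
      · exact lt_irrefl _ h3
      · exact hb'B h1
    have k2 : n ∉ X1 := by
      rintro (⟨h1, -⟩ | ⟨-, -, h3⟩)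
      · exact hnA h1
      · exact lt_irrefl _ h3
    have k3 : b ∉ X1 := by
      rintro (⟨-, h2, -⟩ | ⟨-, h2, -⟩)
      · exact lt_irrefl _ h2
      · exact absurd hb1 (not_lt.2 h2)
    have k4 : b' ∉ X2 := by
      rintro ((⟨-, h3⟩ | ⟨h1, -⟩) | ⟨-, h3⟩)
      · exact lt_irrefl (h b') h3
      · exact hb'B h1
      · have : h b' < h b := h3
        linarith
    have k5 : n ∉ X2 := by
      rintro ((⟨h1, -⟩ | ⟨-, h2, -⟩) | ⟨h1, -⟩)
      · exact hnA h1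
      · exact lt_irrefl _ h2
      · exact hnA h1
    have k6 : b ∉ X2 := by
      rintro ((⟨-, h3⟩ | ⟨-, h2, -⟩) | ⟨-, h3⟩)
      · have : h b' < h b := h3
        linarith
      · linarith
      · exact lt_irrefl (h b) h3
    have k7 : b' ∉ K := fun hk => Set.disjoint_left.1 hKA hk hb'A
    have k8 : n ∉ K := fun hk => Set.disjoint_left.1 hKB hk hnB
    have k9 : b ∉ K := fun hk => Set.disjoint_left.1 hKA hk hbA
    intro i j
    fin_cases i <;> fin_cases j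
    · exact k1
    · exact k2
    · exact k3
    · exact k4
    · exact k5
    · exact k6
    · exact k7
    · exact k8
    · exact k9
  · -- adjacencies
    have a1 : ∃ x ∈ X1, G.Adj x b' := by
      obtain ⟨y, hy, h1, h2, h3⟩ := hA.prev hb'A hb's
      refine ⟨y, Or.inl ⟨hy, ?_, h2⟩, hR _ _ h1⟩
      have h4 := (h3 vm hmA).resolve_right (not_le.2 hb'1)
      exact hb1.trans_le h4
    have a2 : ∃ x ∈ X1, G.Adj x n := by
      obtain ⟨y, hy, h1, h2, h3⟩ := hB.prev hnB hns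
      refine ⟨y, Or.inr ⟨hy, ?_, h2⟩, hR _ _ h1⟩
      exact (h3 vm hmB).resolve_right (not_le.2 hn1)
    have a3 : ∃ x ∈ X1, G.Adj x b := by
      obtain ⟨y, hy, h1, h2, h3⟩ := hA.next b hbA hbt
      refine ⟨y, Or.inl ⟨hy, h2, ?_⟩, (hR _ _ h1).symm⟩
      have h4 := (h3 vm hmA).resolve_left (not_le.2 hb1)
      exact h4.trans_lt hb'1
    have a4 : ∃ x ∈ X2, G.Adj x b' := by
      obtain ⟨y, hy, h1, h2, h3⟩ := hA.next b' hb'A hb't
      exact ⟨y, Or.inl (Or.inl ⟨hy, h2⟩), (hR _ _ h1).symm⟩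
    have a5 : ∃ x ∈ X2, G.Adj x n := by
      obtain ⟨y, hy, h1, h2, h3⟩ := hB.next n hnB hnt
      exact ⟨y, Or.inl (Or.inr ⟨hy, h2, (h3 vp hpB).resolve_left (not_le.2 hn2)⟩),
        (hR _ _ h1).symm⟩
    have a6 : ∃ x ∈ X2, G.Adj x b := by
      by_cases hbs : b = s
      · exact ⟨t, Or.inl (Or.inl htX), hbs ▸ hst.symm⟩
      · obtain ⟨y, hy, h1, h2, h3⟩ := hA.prev hbA hbs
        exact ⟨y, Or.inr ⟨hy, h2⟩, hR _ _ h1⟩
    intro i j
    fin_cases i <;> fin_cases j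
    · exact a1
    · exact a2
    · exact a3
    · exact a4
    · exact a5
    · exact a6
    · exact hb'K
    · exact hnK
    · exact hbK

end k33

/-- the neighbours in `L` of a connected set outside `L` lie on a cycle of two ascending arcs -/
theorem cyc' (hK33 : RowK33) (hW2 : RowW2) {V : Type} [Finite V] {G : SimpleGraph V}
    (hc : G.Connected) (hP : ∃ σ : Equiv.Perm G.Dart, PlaneMap G σ) {L : Set V} {h : V → ℝ}
    {s t : V} {U : V → V → Prop} (hU : ∀ u v, U u v → G.Adj u v ∧ h u < h v ∧ u ∈ L ∧ v ∈ L)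
    (hs : s ∈ L) (ht : t ∈ L) (hlow : ∀ v ∈ L, v ≠ s → ∃ u, U u v)
    (hhigh : ∀ v ∈ L, v ≠ t → ∃ w, U v w) (hst : G.Adj s t) {K : Set V}
    (hK : (G.induce K).Connected) (hKL : Disjoint K L) :
    ∃ (A B : Set V) (p q : V), h p < h q ∧ Arc U h p q A ∧ A ⊆ L ∧ B ⊆ L ∧
      (∀ x ∈ A, x ∈ B → x = p ∨ x = q) ∧
      (∀ a ∈ L, (∃ x ∈ K, G.Adj x a) → a ∈ A ∨ a ∈ B) ∧
      ((Arc U h p q B ∧ (∃ y ∈ A, y ≠ p ∧ y ≠ q ∧ ∃ x ∈ K, G.Adj x y) ∧
        (∃ y ∈ B, y ≠ p ∧ y ≠ q ∧ ∃ x ∈ K, G.Adj x y)) ∨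
      (p = s ∧ q = t ∧ B = {s, t} ∧ ∀ a ∈ L, (∃ x ∈ K, G.Adj x a) → a ∈ A)) := by
  classical
  have hlt : ∀ u v, U u v → h u < h v := fun u v e => (hU u v e).2.1
  have hUL : ∀ u v, U u v → u ∈ L ∧ v ∈ L := fun u v e => (hU u v e).2.2
  have hUG : ∀ u v, U u v → G.Adj u v := fun u v e => (hU u v e).1
  have hbot := w2_bot hU hlow
  have hU' : ∀ u v, Function.swap U u v → G.Adj u v ∧ (fun v => - h v) u < (fun v => - h v) v ∧
      u ∈ L ∧ v ∈ L := by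
    intro u v e
    have h1 := hU v u e
    exact ⟨h1.1.symm, neg_lt_neg h1.2.1, h1.2.2.2, h1.2.2.1⟩
  have htop : ∀ v ∈ L, ReflTransGen U v t := fun v hv =>
    (reflTransGen_swap).1 (w2_bot (h := fun v => - h v) hU' hhigh v hv)
  have hst' : h s < h t := (rtg_lt hlt (htop s hs)).resolve_left hst.ne
  set N : Set V := {a | a ∈ L ∧ ∃ x ∈ K, G.Adj x a} with hN
  -- two chains
  have h3 := hW2 V G hc hP L h s t U hU hs ht hlow hhigh K hK hKL
  obtain ⟨P, Q, hPQ, hPQ', hPc, hQc⟩ := Vale.Agent.P235.R2.H934.two_chains (ReflTransGen U)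
    (fun _ => ReflTransGen.refl) (fun _ _ _ h1 h2 => h1.trans h2)
    (fun a b h1 h2 => by
      rcases rtg_lt hlt h1 with h4 | h4
      · exact h4
      · rcases rtg_lt hlt h2 with h5 | h5
        · exact h5.symm
        · exact absurd h4 (lt_asymm h5)) _ (Set.toFinite N).toFinset rfl (by
      intro a ha b hb c hc
      rw [Set.Finite.mem_toFinset] at ha hb hc
      exact h3 a ha.1 b hb.1 c hc.1 ha.2 hb.2 hc.2)
  have hmemN : ∀ x, x ∈ P ∨ x ∈ Q → x ∈ N := fun x hx => by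
    have := hPQ' x hx
    rwa [Set.Finite.mem_toFinset] at this
  obtain ⟨A₀, hA₀, hA₀L, hPA⟩ := exists_arc_cover hlt hUL htop _ P rfl
    (fun c hc => (hmemN c (Or.inl hc)).1) hPc s hs (fun c hc => hbot c (hmemN c (Or.inl hc)).1)
  obtain ⟨B₀, hB₀, hB₀L, hQB⟩ := exists_arc_cover hlt hUL htop _ Q rfl
    (fun c hc => (hmemN c (Or.inr hc)).1) hQc s hs (fun c hc => hbot c (hmemN c (Or.inr hc)).1)
  -- a pair of arcs with many neighbours on the first one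
  set Pr : Set (Set V × Set V) := {X | Arc U h s t X.1 ∧ Arc U h s t X.2 ∧ X.1 ⊆ L ∧ X.2 ⊆ L ∧
    ∀ a ∈ N, a ∈ X.1 ∨ a ∈ X.2} with hPr
  have hne : (A₀, B₀) ∈ Pr := ⟨hA₀, hB₀, hA₀L, hB₀L, fun a ha => by
    rcases hPQ a ((Set.Finite.mem_toFinset _).2 ha) with h1 | h1
    · exact Or.inl (hPA a h1)
    · exact Or.inr (hQB a h1)⟩
  obtain ⟨⟨A, B⟩, ⟨hA, hB, hAL, hBL, hcov⟩, hmax⟩ := Set.exists_max_image Pr
    (fun X => (N ∩ X.1).ncard) (Set.toFinite _) ⟨_, hne⟩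
  dsimp only at hA hB hAL hBL hcov hmax
  have hKA : Disjoint K A := hKL.mono_right hAL
  have hKB : Disjoint K B := hKL.mono_right hBL
  -- local analysis
  have key : ∀ n ∈ N, n ∈ B → n ∉ A → ∃ vm vp, vm ∈ A ∧ vm ∈ B ∧ vp ∈ A ∧ vp ∈ B ∧
      h vm < h n ∧ h n < h vp ∧ (∀ x ∈ A, x ∈ B → h x ≤ h vm ∨ h vp ≤ h x) ∧
      (∃ b' ∈ N, b' ∈ A ∧ h vm < h b' ∧ h b' < h vp) ∧
      ∀ b ∈ N, b ∈ A → h vm ≤ h b ∧ h b ≤ h vp := by
    intro n hnN hnB hnA
    have hns : n ≠ s := fun e => hnA (e ▸ hA.bot)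
    have hnt : n ≠ t := fun e => hnA (e ▸ hA.top)
    obtain ⟨vm, ⟨hmA, hmB, hmn⟩, hmmax⟩ := Set.exists_max_image
      {x | x ∈ A ∧ x ∈ B ∧ h x < h n} h (Set.toFinite _) ⟨s, hA.bot, hB.bot, hB.bot_lt hnB hns⟩
    obtain ⟨vp, ⟨hpA, hpB, hpn⟩, hpmin⟩ := Set.exists_min_image
      {x | x ∈ A ∧ x ∈ B ∧ h n < h x} h (Set.toFinite _) ⟨t, hA.top, hB.top, hB.lt_top hnB hnt⟩
    have hY : ∀ x ∈ A, x ∈ B → h x ≤ h vm ∨ h vp ≤ h x := by
      intro x hxA hxB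
      rcases lt_trichotomy (h x) (h n) with h1 | h1 | h1
      · exact Or.inl (hmmax x ⟨hxA, hxB, h1⟩)
      · exact absurd (hB.inj x hxB n hnB h1 ▸ hxA) hnA
      · exact Or.inr (hpmin x ⟨hxA, hxB, h1⟩)
    have hmp : h vm ≤ h vp := (hmn.trans hpn).le
    set A' : Set V := ({x | x ∈ A ∧ h s ≤ h x ∧ h x ≤ h vm} ∪
      {x | x ∈ B ∧ h vm ≤ h x ∧ h x ≤ h vp}) ∪ {x | x ∈ A ∧ h vp ≤ h x ∧ h x ≤ h t} with hA'
    set B' : Set V := ({x | x ∈ B ∧ h s ≤ h x ∧ h x ≤ h vm} ∪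
      {x | x ∈ A ∧ h vm ≤ h x ∧ h x ≤ h vp}) ∪ {x | x ∈ B ∧ h vp ≤ h x ∧ h x ≤ h t} with hB'
    have hA'a : Arc U h s t A' := ((hA.seg hA.bot hmA (hA.ge _ hmA)).glue
      (hB.seg hmB hpB hmp)).glue (hA.seg hpA hA.top (hA.le _ hpA))
    have hB'a : Arc U h s t B' := ((hB.seg hB.bot hmB (hB.ge _ hmB)).glue
      (hA.seg hmA hpA hmp)).glue (hB.seg hpB hB.top (hB.le _ hpB))
    have hA'L : A' ⊆ L := by
      rintro x ((⟨hx, -⟩ | ⟨hx, -⟩) | ⟨hx, -⟩)
      · exact hAL hx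
      · exact hBL hx
      · exact hAL hx
    have hB'L : B' ⊆ L := by
      rintro x ((⟨hx, -⟩ | ⟨hx, -⟩) | ⟨hx, -⟩)
      · exact hBL hx
      · exact hAL hx
      · exact hBL hx
    have hcov' : ∀ a ∈ N, a ∈ A' ∨ a ∈ B' := by
      intro a ha
      rcases hcov a ha with h1 | h1
      · rcases le_total (h a) (h vm) with h2 | h2
        · exact Or.inl (Or.inl (Or.inl ⟨h1, hA.ge a h1, h2⟩))
        · rcases le_total (h a) (h vp) with h4 | h4
          · exact Or.inr (Or.inl (Or.inr ⟨h1, h2, h4⟩))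
          · exact Or.inl (Or.inr ⟨h1, h4, hA.le a h1⟩)
      · rcases le_total (h a) (h vm) with h2 | h2
        · exact Or.inr (Or.inl (Or.inl ⟨h1, hB.ge a h1, h2⟩))
        · rcases le_total (h a) (h vp) with h4 | h4
          · exact Or.inl (Or.inl (Or.inr ⟨h1, h2, h4⟩))
          · exact Or.inr (Or.inr ⟨h1, h4, hB.le a h1⟩)
    have hle := hmax (A', B') ⟨hA'a, hB'a, hA'L, hB'L, hcov'⟩
    have hb' : ∃ b' ∈ N, b' ∈ A ∧ h vm < h b' ∧ h b' < h vp := by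
      by_contra hcon
      push Not at hcon
      have hsub : N ∩ A ⊂ N ∩ A' := by
        refine ⟨?_, fun hh => hnA (hh ⟨hnN, Or.inl (Or.inr ⟨hnB, hmn.le, hpn.le⟩)⟩).2⟩
        rintro x ⟨hxN, hxA⟩
        refine ⟨hxN, ?_⟩
        rcases le_or_gt (h x) (h vm) with h2 | h2
        · exact Or.inl (Or.inl ⟨hxA, hA.ge x hxA, h2⟩)
        · exact Or.inr ⟨hxA, hcon x hxN hxA h2, hA.le x hxA⟩
      exact absurd hle (not_le.2 (Set.ncard_lt_ncard hsub (Set.toFinite _)))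
    refine ⟨vm, vp, hmA, hmB, hpA, hpB, hmn, hpn, hY, hb', ?_⟩
    obtain ⟨b', hb'N, hb'A, hb'1, hb'2⟩ := hb'
    intro b hbN hbA
    constructor
    · by_contra hcon
      exact k33_low hK33 hc hP hUG hst hA hB hK hKA hKB hmA hmB hpA hpB hY hnB hmn hpn hnN.2
        hb'A hb'1 hb'2 hb'N.2 hbA (not_le.1 hcon) hbN.2
    · by_contra hcon
      exact k33_low (h := fun v => - h v) (R := fun u v => U v u) hK33 hc hP
        (fun u v e => (hUG _ _ e).symm) hst.symm hA.neg hB.neg hK hKA hKB hpA hpB hmA hmB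
        (fun x hxA hxB => (hY x hxA hxB).symm.imp neg_le_neg neg_le_neg) hnB (neg_lt_neg hpn)
        (neg_lt_neg hmn) hnN.2 hb'A (neg_lt_neg hb'2) (neg_lt_neg hb'1) hb'N.2 hbA
        (neg_lt_neg (not_le.1 hcon)) hbN.2
  by_cases hall : ∀ n ∈ N, n ∈ A
  · refine ⟨A, {s, t}, s, t, hst', hA, hAL, ?_, ?_, ?_,
      Or.inr ⟨rfl, rfl, rfl, fun a ha hx => hall a ⟨ha, hx⟩⟩⟩
    · rintro x (rfl | rfl)
      · exact hs
      · exact ht
    · rintro x - hx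
      exact hx
    · exact fun a ha hx => Or.inl (hall a ⟨ha, hx⟩)
  push Not at hall
  obtain ⟨n, hnN, hnA⟩ := hall
  have hnB : n ∈ B := (hcov n hnN).resolve_left hnA
  obtain ⟨vm, vp, hmA, hmB, hpA, hpB, hmn, hpn, hY, ⟨b', hb'N, hb'A, hb'1, hb'2⟩, hin⟩ :=
    key n hnN hnB hnA
  have hmp : h vm < h vp := hmn.trans hpn
  refine ⟨{x | x ∈ A ∧ h vm ≤ h x ∧ h x ≤ h vp}, {x | x ∈ B ∧ h vm ≤ h x ∧ h x ≤ h vp}, vm, vp,
    hmp, hA.seg hmA hpA hmp.le, fun x hx => hAL hx.1, fun x hx => hBL hx.1, ?_, ?_,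
    Or.inl ⟨hB.seg hmB hpB hmp.le, ⟨b', ⟨hb'A, hb'1.le, hb'2.le⟩, ?_, ?_, hb'N.2⟩,
      ⟨n, ⟨hnB, hmn.le, hpn.le⟩, ?_, ?_, hnN.2⟩⟩⟩
  · rintro x ⟨h1, h2, h4⟩ ⟨h5, -⟩
    rcases hY x h1 h5 with h6 | h6
    · exact Or.inl (hA.inj x h1 vm hmA (le_antisymm h6 h2))
    · exact Or.inr (hA.inj x h1 vp hpA (le_antisymm h4 h6))
  · intro a haL haK
    by_cases haA : a ∈ A
    · exact Or.inl ⟨haA, hin a ⟨haL, haK⟩ haA⟩
    right
    have haN : a ∈ N := ⟨haL, haK⟩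
    have haB : a ∈ B := (hcov a haN).resolve_left haA
    obtain ⟨wm, wp, kmA, kmB, kpA, kpB, kmn, kpn, kY, ⟨c', hc'N, hc'A, hc'1, hc'2⟩, kin⟩ :=
      key a haN haB haA
    have hc'i := hin c' hc'N hc'A
    refine ⟨haB, ?_, ?_⟩
    · by_contra hcon
      have h1 : h a < h vm := not_le.1 hcon
      have h2 : h wp ≤ h vm := by
        rcases kY vm hmA hmB with h5 | h5
        · linarith
        · exact h5
      linarith [hc'i.1]
    · by_contra hcon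
      have h1 : h vp < h a := not_le.1 hcon
      have h2 : h vp ≤ h wm := by
        rcases kY vp hpA hpB with h5 | h5
        · exact h5
        · linarith
      linarith [hc'i.2]
  · rintro rfl
    exact lt_irrefl _ hb'1
  · rintro rfl
    exact lt_irrefl _ hb'2
  · rintro rfl
    exact lt_irrefl _ hmn
  · rintro rfl
    exact lt_irrefl _ hpn

/-- **the neighbours in `L` of a connected set `K` outside `L` lie on a cycle of two ascending
arcs** `A`, `B` from `p` to `q` (`B` may be the edge `s t`, then all of them are on `A`) -/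
theorem cyc {V : Type} [Finite V] {G : SimpleGraph V}
    (hc : G.Connected) (hP : ∃ σ : Equiv.Perm G.Dart, PlaneMap G σ) {L : Set V} {h : V → ℝ}
    {s t : V} {U : V → V → Prop} (hU : ∀ u v, U u v → G.Adj u v ∧ h u < h v ∧ u ∈ L ∧ v ∈ L)
    (hs : s ∈ L) (ht : t ∈ L) (hlow : ∀ v ∈ L, v ≠ s → ∃ u, U u v)
    (hhigh : ∀ v ∈ L, v ≠ t → ∃ w, U v w) (hst : G.Adj s t) {K : Set V}
    (hK : (G.induce K).Connected) (hKL : Disjoint K L) :
    ∃ (A B : Set V) (p q : V), h p < h q ∧ Arc U h p q A ∧ A ⊆ L ∧ B ⊆ L ∧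
      (∀ x ∈ A, x ∈ B → x = p ∨ x = q) ∧
      (∀ a ∈ L, (∃ x ∈ K, G.Adj x a) → a ∈ A ∨ a ∈ B) ∧
      ((Arc U h p q B ∧ (∃ y ∈ A, y ≠ p ∧ y ≠ q ∧ ∃ x ∈ K, G.Adj x y) ∧
        (∃ y ∈ B, y ≠ p ∧ y ≠ q ∧ ∃ x ∈ K, G.Adj x y)) ∨
      (p = s ∧ q = t ∧ B = {s, t} ∧ ∀ a ∈ L, (∃ x ∈ K, G.Adj x a) → a ∈ A)) :=
  cyc' (rowK33 quo_row noK33) w2_row hc hP hU hs ht hlow hhigh hst hK hKL

end Vale.Agent.P235.LL
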